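import Vale.Agent.P045.V4.Count
import Vale.Agent.P045.V4.Forced
import Vale.Agent.P045.V4.Wire
import Vale.Agent.P045.V4.GadgetStmt
import Vale.Agent.P045.V4.Params.Existence

/-!
# P045: Ryser's conjecture fails

An intersecting partite uniform hypergraph in which every cover has at least as many vertices as
there are parts, and hence the negation of the conjectured bound.
-/

open Finset

namespace Vale.Agent.Results.P045.RyserDisproof

open scoped Classical in
theorem result :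
    (∃ (r : ℕ) (V : Type) (_ : Fintype V) (part : V → Fin r) (H : Finset (Finset V)),
      2 ≤ r ∧ H.Nonempty ∧ (∀ e ∈ H, ∀ i, ∃! v, v ∈ e ∧ part v = i) ∧
      (∀ e ∈ H, ∀ f ∈ H, (e ∩ f).Nonempty) ∧
      ∀ C : Finset V, (∀ e ∈ H, (e ∩ C).Nonempty) → r ≤ #C) ∧
    ¬ ∀ r : ℕ, 2 ≤ r → ∀ (V : Type) (_ : Fintype V) (part : V → Fin r) (H : Finset (Finset V)),
      (∀ e ∈ H, ∀ i, ∃! v, v ∈ e ∧ part v = i) → ∀ nu : ℕ,
      (∀ M ⊆ H, (∀ e ∈ M, ∀ f ∈ M, e ≠ f → Disjoint e f) → #M ≤ nu) →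
      ∃ C : Finset V, (∀ e ∈ H, (e ∩ C).Nonempty) ∧ #C ≤ (r - 1) * nu :=
  Vale.Agent.P045.V4.disproof_of_counter
    (Vale.Agent.P045.V4.counter_stmt Vale.Agent.P045.V4.gadget_stmt
      Vale.Agent.P045.V4.param_stmt Vale.Agent.P045.V4.forced_stmt)

end Vale.Agent.Results.P045.RyserDisproof
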